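import Mathlib
import Vale.Agent.Lib.P162.Defs
import Vale.Agent.Lib.P162.helper24.TvCompare
import Vale.Agent.Lib.P162.helper43.ProdKernelPow
import Vale.Agent.Lib.P162.helper22.WmatPow
import Vale.Agent.Lib.P162.helper77.CountClose
import Vale.Agent.Lib.P162.helper36.MoveInj
import Vale.Agent.Lib.P162.helper95.KmatBasic
import Vale.Agent.Lib.P162.helper81.StepFree
import Vale.Agent.Lib.P162.helper5.LumpPair
import Vale.Agent.Lib.P162.helper61.PartnerGap
import Vale.Agent.Lib.P162.helper47.UnifTv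

/-!
Thorp shuffle: the positions of `k` tracked cards, for every even deck size.
Assembly of the pool lemmas (one file per lemma, see the imports) into the bound
`kcard_mixing` for the `k`-card chain.
-/

namespace Vale.Agent.Lib.P162.H57

open Finset BigOperators
open Vale.Agent.Lib.P162.H24 (tv_compare prod_tv)
open Vale.Agent.Lib.P162.H43 (Wk_pow)
open Vale.Agent.Lib.P162.H22 (Wmat_pow)
open Vale.Agent.Lib.P162.H77 (count_le_one count_close)
open Vale.Agent.Lib.P162.H36 (cast_eq_iff move_injective)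
open Vale.Agent.Lib.P162.H95 (stepProb_nonneg stepProb_sum Kmat_pow_support Kmat_pow_nonneg
  Kmat_pow_sum)
open Vale.Agent.Lib.P162.H81 (stepProb_free)
open Vale.Agent.Lib.P162.H5 (lump_pair)
open Vale.Agent.Lib.P162.H61 (partner_gap)
open Vale.Agent.Lib.P162.H47 (unif_tv)

theorem pow_stoch {S : Type*} [Fintype S] [DecidableEq S] (A : Matrix S S ℝ)
    (hA : ∀ z y, 0 ≤ A z y) (hA1 : ∀ z, ∑ y, A z y = 1) (m : ℕ) :
    (∀ z y, 0 ≤ (A ^ m) z y) ∧ (∀ z, ∑ y, (A ^ m) z y = 1) := by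
  induction m with
  | zero =>
    refine ⟨fun z y => ?_, fun z => ?_⟩
    · rw [pow_zero, Matrix.one_apply]; split_ifs <;> norm_num
    · simp [Matrix.one_apply]
  | succ m ih =>
    refine ⟨fun z y => ?_, fun z => ?_⟩
    · rw [pow_succ, Matrix.mul_apply]
      exact Finset.sum_nonneg fun u _ => mul_nonneg (ih.1 z u) (hA u y)
    · simp_rw [pow_succ, Matrix.mul_apply]
      rw [Finset.sum_comm]
      simp_rw [← Finset.mul_sum, hA1, mul_one]
      exact ih.2 z

theorem Wmat_nonneg (h : ℕ) [NeZero h] (p q : ZMod (2 * h)) : 0 ≤ Wmat h p q := by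
  unfold Wmat
  split_ifs <;> norm_num

theorem Wmat_sum (h : ℕ) [NeZero h] (p : ZMod (2 * h)) : ∑ q, Wmat h p q = 1 := by
  unfold Wmat
  rw [Finset.sum_add_distrib]
  simp only [Finset.sum_ite_eq', Finset.mem_univ, if_true]
  norm_num

theorem Wmat_pow_nonneg (h : ℕ) [NeZero h] (m : ℕ) (p q : ZMod (2 * h)) :
    0 ≤ (Wmat h ^ m) p q :=
  (pow_stoch (Wmat h) (Wmat_nonneg h) (Wmat_sum h) m).1 p q

theorem Wmat_pow_sum (h : ℕ) [NeZero h] (m : ℕ) (p : ZMod (2 * h)) :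
    ∑ q, (Wmat h ^ m) p q = 1 :=
  (pow_stoch (Wmat h) (Wmat_nonneg h) (Wmat_sum h) m).2 p

theorem Wmat_pow_le (h : ℕ) [NeZero h] (m : ℕ) (hm : 2 ^ m ≤ 2 * h) (p y : ZMod (2 * h)) :
    (Wmat h ^ m) p y ≤ 1 / 2 ^ m := by
  rw [Wmat_pow]
  have h1 := count_le_one h m hm ((2 : ZMod (2 * h)) ^ m * p) y
  have h2 : (((range (2 ^ m)).filter
          (fun u : ℕ => (2 : ZMod (2 * h)) ^ m * p + (u : ZMod (2 * h)) = y)).card : ℝ) ≤ 1 := by
    exact_mod_cast h1
  have h3 : (0 : ℝ) < 2 ^ m := by positivity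
  exact div_le_div_of_nonneg_right h2 h3.le

theorem Wmat_pow_close (h : ℕ) [NeZero h] (m : ℕ) (p y : ZMod (2 * h)) :
    |(Wmat h ^ m) p y - 1 / (2 * h : ℝ)| ≤ 1 / 2 ^ m := by
  rw [Wmat_pow]
  exact count_close h m ((2 : ZMod (2 * h)) ^ m * p) y

theorem Wk_nonneg (h k : ℕ) [NeZero h] (z y : Fin k → ZMod (2 * h)) : 0 ≤ Wk h k z y := by
  unfold Wk
  exact Finset.prod_nonneg fun j _ => Wmat_nonneg h _ _

theorem Wk_sum (h k : ℕ) [NeZero h] (z : Fin k → ZMod (2 * h)) : ∑ y, Wk h k z y = 1 := by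
  unfold Wk
  rw [← Fintype.prod_sum (fun j q => Wmat h (z j) q)]
  simp [Wmat_sum]

theorem Wk_pow_nonneg (h k : ℕ) [NeZero h] (m : ℕ) (z y : Fin k → ZMod (2 * h)) :
    0 ≤ (Wk h k ^ m) z y :=
  (pow_stoch (Wk h k) (Wk_nonneg h k) (Wk_sum h k) m).1 z y

theorem Wk_pow_sum (h k : ℕ) [NeZero h] (m : ℕ) (z : Fin k → ZMod (2 * h)) :
    ∑ y, (Wk h k ^ m) z y = 1 :=
  (pow_stoch (Wk h k) (Wk_nonneg h k) (Wk_sum h k) m).2 z

theorem hh_zero (h : ℕ) [NeZero h] : (h : ZMod (2 * h)) + (h : ZMod (2 * h)) = 0 := by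
  have : ((2 * h : ℕ) : ZMod (2 * h)) = 0 := ZMod.natCast_self (2 * h)
  rw [← this]
  push_cast
  ring

/-- the free two-card chain: partners with probability at most `2 ^ (-r)` -/
theorem free_partner (h : ℕ) [NeZero h] (r : ℕ) (hr : 2 ^ r ≤ 2 * h) (v : Fin 2 → ZMod (2 * h)) :
    ∑ w ∈ univ.filter (fun w : Fin 2 → ZMod (2 * h) => w 1 = w 0 + (h : ZMod (2 * h))),
        (Wk h 2 ^ r) v w ≤ 1 / 2 ^ r := by
  set P := univ.filter (fun w : Fin 2 → ZMod (2 * h) => w 1 = w 0 + (h : ZMod (2 * h))) with hP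
  have h1 : ∀ w ∈ P, (Wk h 2 ^ r) v w ≤ (Wmat h ^ r) (v 0) (w 0) * (1 / 2 ^ r) := by
    intro w _
    rw [Wk_pow, Fin.prod_univ_two]
    exact mul_le_mul_of_nonneg_left (Wmat_pow_le h r hr _ _) (Wmat_pow_nonneg h r _ _)
  have h2 : ∑ w ∈ P, (Wmat h ^ r) (v 0) (w 0) ≤ 1 := by
    have h3 : ∑ w ∈ P, (Wmat h ^ r) (v 0) (w 0)
        = ∑ u ∈ P.image (fun w : Fin 2 → ZMod (2 * h) => w 0), (Wmat h ^ r) (v 0) u := by
      rw [Finset.sum_image]
      intro a ha b hb hab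
      have ha : a 1 = a 0 + (h : ZMod (2 * h)) := by
        have := Finset.mem_coe.mp ha
        rw [hP, Finset.mem_filter] at this
        exact this.2
      have hb : b 1 = b 0 + (h : ZMod (2 * h)) := by
        have := Finset.mem_coe.mp hb
        rw [hP, Finset.mem_filter] at this
        exact this.2
      funext i
      fin_cases i
      · exact hab
      · show a 1 = b 1
        rw [ha, hb]
        have hab' : a 0 = b 0 := hab
        rw [hab']
    rw [h3, ← Wmat_pow_sum h r (v 0)]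
    exact Finset.sum_le_sum_of_subset_of_nonneg (Finset.subset_univ _)
      (fun u _ _ => Wmat_pow_nonneg h r _ _)
  calc ∑ w ∈ P, (Wk h 2 ^ r) v w
      ≤ ∑ w ∈ P, (Wmat h ^ r) (v 0) (w 0) * (1 / 2 ^ r) := Finset.sum_le_sum h1
    _ = (∑ w ∈ P, (Wmat h ^ r) (v 0) (w 0)) * (1 / 2 ^ r) := by rw [Finset.sum_mul]
    _ ≤ 1 * (1 / 2 ^ r) := by
        apply mul_le_mul_of_nonneg_right h2
        positivity
    _ = 1 / 2 ^ r := one_mul _


theorem not_bad_two (h : ℕ) [NeZero h] (w : Fin 2 → ZMod (2 * h)) (h01 : w 0 ≠ w 1)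
    (hp : w 1 ≠ w 0 + (h : ZMod (2 * h))) : ¬ bad h 2 w := by
  rintro ⟨j, j', hjj, hc⟩
  rw [cast_eq_iff] at hc
  fin_cases j <;> fin_cases j'
  · exact hjj rfl
  · rcases hc with hc | hc
    · exact h01 hc.symm
    · exact hp hc
  · rcases hc with hc | hc
    · exact h01 hc
    · apply hp
      have hc' : w 0 = w 1 + (h : ZMod (2 * h)) := hc
      rw [hc', add_assoc, hh_zero, add_zero]
  · exact hjj rfl

theorem Kmat_two_support (h : ℕ) [NeZero h] (w u : Fin 2 → ZMod (2 * h)) (h01 : w 0 ≠ w 1)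
    (s : ℕ) (hu : (Kmat h 2 ^ s) w u ≠ 0) : u 0 ≠ u 1 := by
  have hinj : Function.Injective w := by
    intro a b hab
    fin_cases a <;> fin_cases b
    · rfl
    · exact absurd hab h01
    · exact absurd hab.symm h01
    · rfl
  have := Kmat_pow_support h 2 (move_injective h) w hinj s u hu
  intro h'
  have := this h'
  exact absurd this (by decide)

/-- comparison of the two-card chain with the free chain up to the first time of sharing a coin -/
theorem claim_r (h : ℕ) [NeZero h] (r : ℕ) (hr : 2 ^ r ≤ h) :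
    ∀ w : Fin 2 → ZMod (2 * h), w 0 ≠ w 1 →
    ∑ v ∈ univ.filter (fun w : Fin 2 → ZMod (2 * h) => w 1 = w 0 + (h : ZMod (2 * h))),
        (Kmat h 2 ^ r) w v
      ≤ ∑ v ∈ univ.filter (fun w : Fin 2 → ZMod (2 * h) => w 1 = w 0 + (h : ZMod (2 * h))),
        (Wk h 2 ^ r) w v := by
  induction r with
  | zero =>
    intro w _
    simp only [pow_zero]
    exact le_refl _
  | succ r ih =>
    have hr' : 2 ^ r ≤ h := le_trans (Nat.pow_le_pow_right (by norm_num) (Nat.le_succ r)) hr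
    intro w h01
    by_cases hp : w 1 = w 0 + (h : ZMod (2 * h))
    · have hz : ∑ v ∈ univ.filter (fun w : Fin 2 → ZMod (2 * h) => w 1 = w 0 + (h : ZMod (2 * h))),
          (Kmat h 2 ^ (r + 1)) w v = 0 := by
        apply Finset.sum_eq_zero
        intro v hv
        rw [Finset.mem_filter] at hv
        exact partner_gap h (r + 1) (Nat.succ_le_succ (Nat.zero_le r)) hr w v hp hv.2
      rw [hz]
      exact Finset.sum_nonneg fun v _ => Wk_pow_nonneg h 2 (r + 1) w v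
    · have hfree : ∀ u, Kmat h 2 w u = Wk h 2 w u := fun u =>
        stepProb_free h 2 w u (not_bad_two h w h01 hp)
      simp_rw [pow_succ', Matrix.mul_apply]
      rw [Finset.sum_comm]
      rw [Finset.sum_comm (f := fun v u => Wk h 2 w u * (Wk h 2 ^ r) u v)]
      apply Finset.sum_le_sum
      intro u _
      rw [← Finset.mul_sum, ← Finset.mul_sum, hfree u]
      by_cases hu : Wk h 2 w u = 0
      · rw [hu, zero_mul, zero_mul]
      · have hu' : (Kmat h 2 ^ 1) w u ≠ 0 := by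
          rw [pow_one, hfree u]; exact hu
        have hu01 := Kmat_two_support h w u h01 1 hu'
        exact mul_le_mul_of_nonneg_left (ih hr' u hu01) (Wk_nonneg h 2 w u)

theorem pair_partner (h : ℕ) [NeZero h] (w0 : Fin 2 → ZMod (2 * h)) (hw : w0 0 ≠ w0 1)
    (m s : ℕ) (hm : 2 ^ m ≤ h) (hs : m ≤ s) :
    ∑ w ∈ univ.filter (fun w : Fin 2 → ZMod (2 * h) => w 1 = w 0 + (h : ZMod (2 * h))),
        (Kmat h 2 ^ s) w0 w ≤ 1 / 2 ^ m := by
  obtain ⟨t, rfl⟩ := Nat.exists_eq_add_of_le' hs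
  simp_rw [pow_add, Matrix.mul_apply]
  rw [Finset.sum_comm]
  have hm2 : 2 ^ m ≤ 2 * h := by omega
  have key : ∀ u, (Kmat h 2 ^ t) w0 u *
      ∑ v ∈ univ.filter (fun w : Fin 2 → ZMod (2 * h) => w 1 = w 0 + (h : ZMod (2 * h))),
        (Kmat h 2 ^ m) u v ≤ (Kmat h 2 ^ t) w0 u * (1 / 2 ^ m) := by
    intro u
    by_cases hu : (Kmat h 2 ^ t) w0 u = 0
    · rw [hu, zero_mul, zero_mul]
    · have hu01 := Kmat_two_support h w0 u hw t hu
      exact mul_le_mul_of_nonneg_left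
        (le_trans (claim_r h m hm u hu01) (free_partner h m hm2 u)) (Kmat_pow_nonneg h 2 t w0 u)
  calc ∑ u, ∑ v ∈ univ.filter (fun w : Fin 2 → ZMod (2 * h) => w 1 = w 0 + (h : ZMod (2 * h))),
        (Kmat h 2 ^ t) w0 u * (Kmat h 2 ^ m) u v
      = ∑ u, (Kmat h 2 ^ t) w0 u *
          ∑ v ∈ univ.filter (fun w : Fin 2 → ZMod (2 * h) => w 1 = w 0 + (h : ZMod (2 * h))),
            (Kmat h 2 ^ m) u v := by
        apply Finset.sum_congr rfl; intro u _; rw [Finset.mul_sum]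
    _ ≤ ∑ u, (Kmat h 2 ^ t) w0 u * (1 / 2 ^ m) := Finset.sum_le_sum fun u _ => key u
    _ = 1 / 2 ^ m := by rw [← Finset.sum_mul, Kmat_pow_sum, one_mul]


/-- the probability that some two of the tracked cards share a coin -/
theorem bad_prob (h k : ℕ) [NeZero h] [DecidablePred (bad h k)] (x : Fin k → ZMod (2 * h))
    (hx : Function.Injective x) (m s : ℕ) (hm : 2 ^ m ≤ h) (hs : m ≤ s) :
    ∑ z ∈ univ.filter (bad h k), (Kmat h k ^ s) x z ≤ (k : ℝ) * (k - 1) / 2 ^ m := by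
  have hnn : ∀ z, 0 ≤ (Kmat h k ^ s) x z := fun z => Kmat_pow_nonneg h k s x z
  -- union bound over ordered pairs
  have h1 : ∑ z ∈ univ.filter (bad h k), (Kmat h k ^ s) x z
      ≤ ∑ z, ∑ p ∈ (univ : Finset (Fin k)).offDiag,
          (if z p.2 = z p.1 + (h : ZMod (2 * h)) then (Kmat h k ^ s) x z else 0) := by
    rw [Finset.sum_filter]
    apply Finset.sum_le_sum
    intro z _
    have hterm : ∀ p ∈ (univ : Finset (Fin k)).offDiag,
        0 ≤ (if z p.2 = z p.1 + (h : ZMod (2 * h)) then (Kmat h k ^ s) x z else 0) := by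
      intro p _
      split_ifs
      · exact hnn z
      · exact le_refl _
    by_cases hb : bad h k z
    · rw [if_pos hb]
      by_cases hz : (Kmat h k ^ s) x z = 0
      · have hsum := Finset.sum_nonneg hterm
        linarith
      · have hzinj := Kmat_pow_support h k (move_injective h) x hx s z hz
        obtain ⟨j, j', hjj, hc⟩ := hb
        rw [cast_eq_iff] at hc
        have hc' : z j' = z j + (h : ZMod (2 * h)) := by
          rcases hc with hc | hc
          · exact absurd (hzinj hc) (Ne.symm hjj)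
          · exact hc
        have hmem : ((j, j') : Fin k × Fin k) ∈ (univ : Finset (Fin k)).offDiag := by
          rw [Finset.mem_offDiag]
          exact ⟨Finset.mem_univ _, Finset.mem_univ _, hjj⟩
        have := Finset.single_le_sum hterm hmem
        simp only [hc', if_true] at this
        exact this
    · rw [if_neg hb]
      exact Finset.sum_nonneg hterm
  -- each ordered pair
  have h2 : ∀ p ∈ (univ : Finset (Fin k)).offDiag,
      ∑ z, (if z p.2 = z p.1 + (h : ZMod (2 * h)) then (Kmat h k ^ s) x z else 0)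
        ≤ 1 / 2 ^ m := by
    intro p hp
    rw [Finset.mem_offDiag] at hp
    obtain ⟨j, j'⟩ := p
    have hjj : j ≠ j' := hp.2.2
    show ∑ z, (if z j' = z j + (h : ZMod (2 * h)) then (Kmat h k ^ s) x z else 0) ≤ 1 / 2 ^ m
    rw [← Finset.sum_filter]
    set P := univ.filter (fun w : Fin 2 → ZMod (2 * h) => w 1 = w 0 + (h : ZMod (2 * h))) with hP
    have hmaps : ∀ z ∈ univ.filter (fun z : Fin k → ZMod (2 * h) => z j' = z j + (h : ZMod (2 * h))),
        (![z j, z j'] : Fin 2 → ZMod (2 * h)) ∈ P := by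
      intro z hz
      rw [Finset.mem_filter] at hz
      rw [hP, Finset.mem_filter]
      refine ⟨Finset.mem_univ _, ?_⟩
      simpa using hz.2
    rw [← Finset.sum_fiberwise_of_maps_to hmaps]
    have h3 : ∀ w ∈ P,
        ∑ z ∈ (univ.filter (fun z : Fin k → ZMod (2 * h) => z j' = z j + (h : ZMod (2 * h)))).filter
            (fun z => (![z j, z j'] : Fin 2 → ZMod (2 * h)) = w), (Kmat h k ^ s) x z
          = (Kmat h 2 ^ s) ![x j, x j'] w := by
      intro w hw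
      rw [hP, Finset.mem_filter] at hw
      rw [← lump_pair h k x j j' hjj s w]
      apply Finset.sum_congr _ (fun _ _ => rfl)
      ext z
      simp only [Finset.mem_filter, Finset.mem_univ, true_and]
      constructor
      · rintro ⟨_, h2⟩
        rw [← h2]
        simp
      · rintro ⟨ha, hb⟩
        refine ⟨?_, ?_⟩
        · rw [ha, hb]; exact hw.2
        · funext i
          fin_cases i
          · simpa using ha
          · simpa using hb
    rw [Finset.sum_congr rfl h3]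
    have hxj : (![x j, x j'] : Fin 2 → ZMod (2 * h)) 0 ≠ (![x j, x j'] : Fin 2 → ZMod (2 * h)) 1 := by
      simp only [Matrix.cons_val_zero, Matrix.cons_val_one]
      exact fun hh => hjj (hx hh)
    exact pair_partner h ![x j, x j'] hxj m s hm hs
  calc ∑ z ∈ univ.filter (bad h k), (Kmat h k ^ s) x z
      ≤ ∑ z, ∑ p ∈ (univ : Finset (Fin k)).offDiag,
          (if z p.2 = z p.1 + (h : ZMod (2 * h)) then (Kmat h k ^ s) x z else 0) := h1
    _ = ∑ p ∈ (univ : Finset (Fin k)).offDiag, ∑ z,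
          (if z p.2 = z p.1 + (h : ZMod (2 * h)) then (Kmat h k ^ s) x z else 0) := Finset.sum_comm
    _ ≤ ∑ p ∈ (univ : Finset (Fin k)).offDiag, (1 / 2 ^ m : ℝ) := Finset.sum_le_sum h2
    _ = (k : ℝ) * (k - 1) / 2 ^ m := by
        rw [Finset.sum_const, Finset.offDiag_card, Finset.card_univ, Fintype.card_fin, nsmul_eq_mul]
        have hk : k ≤ k * k := Nat.le_mul_self k
        rw [Nat.cast_sub hk]
        push_cast
        ring


/-- the free chain started from any law is close to the uniform law on all tuples -/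
theorem free_close (h k : ℕ) [NeZero h] (μ : (Fin k → ZMod (2 * h)) → ℝ) (hμ : ∀ z, 0 ≤ μ z)
    (hμ1 : ∑ z, μ z = 1) (m : ℕ) :
    ∑ y, |(Matrix.vecMul μ (Wk h k ^ m)) y - (1 / (2 * h : ℝ)) ^ k|
      ≤ (k : ℝ) * (2 * h : ℝ) / 2 ^ m := by
  have hcard : Fintype.card (ZMod (2 * h)) = 2 * h := ZMod.card (2 * h)
  have hh : (0 : ℝ) < h := by
    have := NeZero.pos h
    exact_mod_cast this
  have hrow : ∀ z : Fin k → ZMod (2 * h),
      ∑ y, |(Wk h k ^ m) z y - (1 / (2 * h : ℝ)) ^ k| ≤ (k : ℝ) * (2 * h : ℝ) / 2 ^ m := by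
    intro z
    have hb1 : ∑ _q : ZMod (2 * h), (1 / (2 * h : ℝ)) = 1 := by
      rw [Finset.sum_const, Finset.card_univ, hcard, nsmul_eq_mul]
      push_cast
      field_simp
    have h1 := prod_tv k (fun j q => (Wmat h ^ m) (z j) q) (fun _ => (1 / (2 * h : ℝ)))
      (fun j q => Wmat_pow_nonneg h m _ _) (fun j => Wmat_pow_sum h m _)
      (fun _ => by positivity) hb1
    have h2 : ∀ y : Fin k → ZMod (2 * h),
        |(Wk h k ^ m) z y - (1 / (2 * h : ℝ)) ^ k|
          = |∏ j, (Wmat h ^ m) (z j) (y j) - ∏ _j : Fin k, (1 / (2 * h : ℝ))| := by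
      intro y
      rw [Wk_pow, Finset.prod_const, Finset.card_univ, Fintype.card_fin]
    rw [Finset.sum_congr rfl (fun y _ => h2 y)]
    refine le_trans h1 ?_
    have h3 : ∀ j : Fin k, ∑ q, |(Wmat h ^ m) (z j) q - 1 / (2 * h : ℝ)|
        ≤ (2 * h : ℝ) / 2 ^ m := by
      intro j
      calc ∑ q, |(Wmat h ^ m) (z j) q - 1 / (2 * h : ℝ)|
          ≤ ∑ _q : ZMod (2 * h), (1 / 2 ^ m : ℝ) :=
            Finset.sum_le_sum fun q _ => Wmat_pow_close h m (z j) q
        _ = (2 * h : ℝ) / 2 ^ m := by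
            rw [Finset.sum_const, Finset.card_univ, hcard, nsmul_eq_mul]
            push_cast
            ring
    calc ∑ j : Fin k, ∑ q, |(Wmat h ^ m) (z j) q - 1 / (2 * h : ℝ)|
        ≤ ∑ _j : Fin k, (2 * h : ℝ) / 2 ^ m := Finset.sum_le_sum fun j _ => h3 j
      _ = (k : ℝ) * (2 * h : ℝ) / 2 ^ m := by
          rw [Finset.sum_const, Finset.card_univ, Fintype.card_fin, nsmul_eq_mul]
          ring
  have hpt : ∀ y, |(Matrix.vecMul μ (Wk h k ^ m)) y - (1 / (2 * h : ℝ)) ^ k|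
      ≤ ∑ z, μ z * |(Wk h k ^ m) z y - (1 / (2 * h : ℝ)) ^ k| := by
    intro y
    have e1 : (Matrix.vecMul μ (Wk h k ^ m)) y - (1 / (2 * h : ℝ)) ^ k
        = ∑ z, μ z * ((Wk h k ^ m) z y - (1 / (2 * h : ℝ)) ^ k) := by
      simp only [Matrix.vecMul, dotProduct, mul_sub, Finset.sum_sub_distrib]
      rw [← Finset.sum_mul, hμ1, one_mul]
    rw [e1]
    refine le_trans (Finset.abs_sum_le_sum_abs _ _) ?_
    apply Finset.sum_le_sum
    intro z _
    rw [abs_mul, abs_of_nonneg (hμ z)]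
  calc ∑ y, |(Matrix.vecMul μ (Wk h k ^ m)) y - (1 / (2 * h : ℝ)) ^ k|
      ≤ ∑ y, ∑ z, μ z * |(Wk h k ^ m) z y - (1 / (2 * h : ℝ)) ^ k| :=
        Finset.sum_le_sum fun y _ => hpt y
    _ = ∑ z, μ z * ∑ y, |(Wk h k ^ m) z y - (1 / (2 * h : ℝ)) ^ k| := by
        rw [Finset.sum_comm]
        apply Finset.sum_congr rfl
        intro z _
        rw [Finset.mul_sum]
    _ ≤ ∑ z, μ z * ((k : ℝ) * (2 * h : ℝ) / 2 ^ m) :=
        Finset.sum_le_sum fun z _ => mul_le_mul_of_nonneg_left (hrow z) (hμ z)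
    _ = (k : ℝ) * (2 * h : ℝ) / 2 ^ m := by rw [← Finset.sum_mul, hμ1, one_mul]


theorem kcard_mixing (h k : ℕ) [NeZero h] (x : Fin k → ZMod (2 * h))
    (hx : Function.Injective x) :
    (1 / 2 : ℝ) * ∑ y, |(Kmat h k ^ (3 * Nat.clog 2 (2 * h))) x y - unifInj h k y|
      ≤ 9 * (k : ℝ) ^ 2 * (Nat.clog 2 (2 * h) : ℝ) / (2 * h : ℝ) := by
  classical
  set L := Nat.clog 2 (2 * h) with hL
  set m0 := Nat.log 2 h with hm0
  have hhpos : 0 < h := NeZero.pos h
  have hh : (0 : ℝ) < h := by exact_mod_cast hhpos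
  have hL1 : 1 ≤ L := Nat.clog_pos (by norm_num) (by omega)
  have hLn : 2 * h ≤ 2 ^ L := Nat.le_pow_clog (by norm_num) (2 * h)
  have hm0le : 2 ^ m0 ≤ h := Nat.pow_log_le_self 2 (by omega)
  have hm0lt : h < 2 ^ (m0 + 1) := Nat.lt_pow_succ_log_self (by norm_num) h
  have hm0L : m0 ≤ L := by
    have h1 : 2 ^ m0 ≤ 2 ^ L := le_trans hm0le (le_trans (by omega) hLn)
    exact (Nat.pow_le_pow_iff_right (by norm_num)).mp h1
  -- the law after the first L shuffles
  set μ : (Fin k → ZMod (2 * h)) → ℝ := fun z => (Kmat h k ^ L) x z with hμdef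
  have hμ : ∀ z, 0 ≤ μ z := fun z => Kmat_pow_nonneg h k L x z
  have hμ1 : ∑ z, μ z = 1 := Kmat_pow_sum h k L x
  have hvec : ∀ (i : ℕ) (y : Fin k → ZMod (2 * h)),
      (Matrix.vecMul μ (Kmat h k ^ i)) y = (Kmat h k ^ (L + i)) x y := by
    intro i y
    rw [pow_add, Matrix.mul_apply]
    simp only [Matrix.vecMul, dotProduct, hμdef]
  have hK0 : ∀ z y, 0 ≤ Kmat h k z y := fun z y => stepProb_nonneg h k z y
  have hK1 : ∀ z, ∑ y, Kmat h k z y = 1 := fun z => stepProb_sum h k z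
  have hAB : ∀ z, ¬ bad h k z → Kmat h k z = Wk h k z := by
    intro z hz
    funext y
    exact stepProb_free h k z y hz
  -- first term: comparison with the free chain
  have T1 := tv_compare (Kmat h k) (Wk h k) hK0 hK1 (Wk_nonneg h k) (Wk_sum h k) (bad h k) hAB
    μ hμ (2 * L)
  have hbad : ∀ i ∈ range (2 * L),
      ∑ z ∈ univ.filter (bad h k), (Matrix.vecMul μ (Kmat h k ^ i)) z
        ≤ (k : ℝ) * (k - 1) / 2 ^ m0 := by
    intro i _
    rw [Finset.sum_congr rfl (fun z _ => hvec i z)]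
    exact bad_prob h k x hx m0 (L + i) hm0le (by omega)
  have T1' : ∑ y, |(Kmat h k ^ (3 * L)) x y - (Matrix.vecMul μ (Wk h k ^ (2 * L))) y|
      ≤ 2 * ((2 * L : ℕ) * ((k : ℝ) * (k - 1) / 2 ^ m0)) := by
    have e : 3 * L = L + 2 * L := by ring
    have T1a : ∑ y, |(Kmat h k ^ (L + 2 * L)) x y - (Matrix.vecMul μ (Wk h k ^ (2 * L))) y|
        = ∑ y, |(Matrix.vecMul μ (Kmat h k ^ (2 * L))) y
            - (Matrix.vecMul μ (Wk h k ^ (2 * L))) y| := by
      apply Finset.sum_congr rfl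
      intro y _
      rw [hvec (2 * L) y]
    rw [e, T1a]
    refine le_trans T1 ?_
    apply mul_le_mul_of_nonneg_left _ (by norm_num)
    calc ∑ i ∈ range (2 * L), ∑ z ∈ univ.filter (bad h k), (Matrix.vecMul μ (Kmat h k ^ i)) z
        ≤ ∑ _i ∈ range (2 * L), (k : ℝ) * (k - 1) / 2 ^ m0 := Finset.sum_le_sum hbad
      _ = (2 * L : ℕ) * ((k : ℝ) * (k - 1) / 2 ^ m0) := by
          rw [Finset.sum_const, Finset.card_range, nsmul_eq_mul]
  -- second term: the free chain mixes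
  have T2 := free_close h k μ hμ hμ1 (2 * L)
  -- third term
  have T3 := unif_tv h k
  -- triangle inequality
  have tri : ∑ y, |(Kmat h k ^ (3 * L)) x y - unifInj h k y|
      ≤ ∑ y, |(Kmat h k ^ (3 * L)) x y - (Matrix.vecMul μ (Wk h k ^ (2 * L))) y|
        + ∑ y, |(Matrix.vecMul μ (Wk h k ^ (2 * L))) y - (1 / (2 * h : ℝ)) ^ k|
        + ∑ y, |(1 / (2 * h : ℝ)) ^ k - unifInj h k y| := by
    rw [← Finset.sum_add_distrib, ← Finset.sum_add_distrib]
    apply Finset.sum_le_sum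
    intro y _
    have e : (Kmat h k ^ (3 * L)) x y - unifInj h k y
        = ((Kmat h k ^ (3 * L)) x y - (Matrix.vecMul μ (Wk h k ^ (2 * L))) y)
          + ((Matrix.vecMul μ (Wk h k ^ (2 * L))) y - (1 / (2 * h : ℝ)) ^ k)
          + ((1 / (2 * h : ℝ)) ^ k - unifInj h k y) := by ring
    rw [e]
    exact le_trans (abs_add_le _ _) (add_le_add_left (abs_add_le _ _) _)
  -- numerics
  have hkn : (0 : ℝ) ≤ k := Nat.cast_nonneg k
  have hLr : (1 : ℝ) ≤ L := by exact_mod_cast hL1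
  have hpow0 : (h : ℝ) < 2 * 2 ^ m0 := by
    have : h < 2 * 2 ^ m0 := by rw [← pow_succ']; exact hm0lt
    exact_mod_cast this
  have hpow0' : (0 : ℝ) < 2 ^ m0 := by positivity
  have hpowL : (2 * h : ℝ) ≤ 2 ^ L := by exact_mod_cast hLn
  have hkk : (0 : ℝ) ≤ (k : ℝ) * (k - 1) := by
    rcases Nat.eq_zero_or_pos k with hk | hk
    · rw [hk]; simp
    · have : (1 : ℝ) ≤ k := by exact_mod_cast hk
      nlinarith
  -- bound T1: 4 L k (k-1) / 2^m0 ≤ 16 L k (k-1) / (2h)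
  have B1 : 2 * ((2 * L : ℕ) * ((k : ℝ) * (k - 1) / 2 ^ m0))
      ≤ 16 * (L : ℝ) * ((k : ℝ) * (k - 1)) / (2 * h : ℝ) := by
    have h1 : (1 : ℝ) / 2 ^ m0 ≤ 4 / (2 * h : ℝ) := by
      rw [div_le_div_iff₀ hpow0' (by positivity)]
      linarith
    have h2 : (k : ℝ) * (k - 1) / 2 ^ m0 ≤ (k : ℝ) * (k - 1) * (4 / (2 * h : ℝ)) := by
      rw [div_eq_mul_one_div]
      exact mul_le_mul_of_nonneg_left h1 hkk
    push_cast
    have h3 : (0 : ℝ) ≤ 2 * (2 * (L : ℝ)) := by positivity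
    calc 2 * (2 * (L : ℝ) * ((k : ℝ) * (k - 1) / 2 ^ m0))
        = 2 * (2 * (L : ℝ)) * ((k : ℝ) * (k - 1) / 2 ^ m0) := by ring
      _ ≤ 2 * (2 * (L : ℝ)) * ((k : ℝ) * (k - 1) * (4 / (2 * h : ℝ))) :=
          mul_le_mul_of_nonneg_left h2 h3
      _ = 16 * (L : ℝ) * ((k : ℝ) * (k - 1)) / (2 * h : ℝ) := by ring
  -- bound T2: k (2h) / 2^(2L) ≤ k / (2h)
  have B2 : (k : ℝ) * (2 * h : ℝ) / 2 ^ (2 * L) ≤ (k : ℝ) / (2 * h : ℝ) := by
    have h1 : (2 * h : ℝ) * (2 * h : ℝ) ≤ 2 ^ (2 * L) := by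
      rw [pow_mul', sq]
      have h0 : (0 : ℝ) ≤ 2 * h := by positivity
      exact mul_le_mul hpowL hpowL h0 (le_trans h0 hpowL)
    rw [div_le_div_iff₀ (by positivity) (by positivity)]
    have := mul_le_mul_of_nonneg_left h1 hkn
    nlinarith
  have hsum : ∑ y, |(Kmat h k ^ (3 * L)) x y - unifInj h k y|
      ≤ 16 * (L : ℝ) * ((k : ℝ) * (k - 1)) / (2 * h : ℝ) + (k : ℝ) / (2 * h : ℝ)
        + (k : ℝ) * (k - 1) / (2 * h : ℝ) := by
    refine le_trans tri ?_
    exact add_le_add (add_le_add (le_trans T1' B1) (le_trans T2 B2)) T3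
  have hfin : (1 / 2 : ℝ) * (16 * (L : ℝ) * ((k : ℝ) * (k - 1)) / (2 * h : ℝ) + (k : ℝ) / (2 * h : ℝ)
        + (k : ℝ) * (k - 1) / (2 * h : ℝ)) ≤ 9 * (k : ℝ) ^ 2 * (L : ℝ) / (2 * h : ℝ) := by
    rw [← add_div, ← add_div, ← mul_div_assoc]
    apply div_le_div_of_nonneg_right _ (by positivity)
    nlinarith [mul_nonneg hkn (sub_nonneg.mpr hLr), mul_nonneg (mul_nonneg hkn hkn) (sub_nonneg.mpr hLr),
      mul_nonneg hkn hkn, mul_nonneg hkn (le_trans zero_le_one hLr)]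
  calc (1 / 2 : ℝ) * ∑ y, |(Kmat h k ^ (3 * L)) x y - unifInj h k y|
      ≤ (1 / 2 : ℝ) * (16 * (L : ℝ) * ((k : ℝ) * (k - 1)) / (2 * h : ℝ) + (k : ℝ) / (2 * h : ℝ)
        + (k : ℝ) * (k - 1) / (2 * h : ℝ)) := mul_le_mul_of_nonneg_left hsum (by norm_num)
    _ ≤ 9 * (k : ℝ) ^ 2 * (L : ℝ) / (2 * h : ℝ) := hfin

end Vale.Agent.Lib.P162.H57
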