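import Mathlib
import Vale.Agent.Lib.P162.Defs
import Vale.Agent.Lib.P162.Law
import Vale.Agent.Lib.P162.helper57.Assembly
import Vale.Agent.Lib.P162.helper6.LawEqPow
import Vale.Agent.Lib.P162.helper52.UnifStationary

namespace Vale.Agent.Lib.P162.H57

open Finset BigOperators
open Vale.Agent.Lib.P162.H95 (stepProb_nonneg stepProb_sum)
open Vale.Agent.Lib.P162.H6 (law_eq_pow)
open Vale.Agent.Lib.P162.H52 (unif_stationary)

/-- the distance to a stationary law does not increase along a chain -/
theorem tv_mono {S : Type*} [Fintype S] [DecidableEq S] (A : Matrix S S ℝ)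
    (hA : ∀ z y, 0 ≤ A z y) (hA1 : ∀ z, ∑ y, A z y = 1) (u : S → ℝ)
    (hu : ∀ y, ∑ z, u z * A z y = u y) (x : S) (T t : ℕ) :
    ∑ y, |(A ^ (T + t)) x y - u y| ≤ ∑ y, |(A ^ T) x y - u y| := by
  induction t with
  | zero => simp
  | succ t ih =>
    refine le_trans ?_ ih
    have e : ∀ y, (A ^ (T + (t + 1))) x y - u y
        = ∑ z, ((A ^ (T + t)) x z - u z) * A z y := by
      intro y
      rw [← add_assoc, pow_succ, Matrix.mul_apply]
      simp only [sub_mul, Finset.sum_sub_distrib, hu]
    calc ∑ y, |(A ^ (T + (t + 1))) x y - u y|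
        = ∑ y, |∑ z, ((A ^ (T + t)) x z - u z) * A z y| := by
          apply Finset.sum_congr rfl
          intro y _
          rw [e]
      _ ≤ ∑ y, ∑ z, |(A ^ (T + t)) x z - u z| * A z y := by
          apply Finset.sum_le_sum
          intro y _
          refine le_trans (Finset.abs_sum_le_sum_abs _ _) ?_
          apply Finset.sum_le_sum
          intro z _
          rw [abs_mul, abs_of_nonneg (hA z y)]
      _ = ∑ z, |(A ^ (T + t)) x z - u z| := by
          rw [Finset.sum_comm]
          apply Finset.sum_congr rfl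
          intro z _
          rw [← Finset.mul_sum, hA1, mul_one]

/-- For every even deck size `2 * h`, every `k` and every `T ≥ 3 ⌈log₂ (2 h)⌉`: after `T` Thorp
shuffles the joint law of the positions of `k` cards that start in distinct positions is within
total variation distance `9 k ^ 2 ⌈log₂ (2 h)⌉ / (2 h)` of the uniform law on `k`-tuples of
distinct positions. -/
theorem kcard_mixing_all (h k : ℕ) [NeZero h] (x : Fin k → ZMod (2 * h))
    (hx : Function.Injective x) (T : ℕ) (hT : 3 * Nat.clog 2 (2 * h) ≤ T) :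
    (1 / 2 : ℝ) * ∑ y, |trackedLaw h k T x y - unifInj h k y|
      ≤ 9 * (k : ℝ) ^ 2 * (Nat.clog 2 (2 * h) : ℝ) / (2 * h : ℝ) := by
  obtain ⟨t, rfl⟩ := Nat.exists_eq_add_of_le hT
  have h1 : ∑ y, |trackedLaw h k (3 * Nat.clog 2 (2 * h) + t) x y - unifInj h k y|
      ≤ ∑ y, |(Kmat h k ^ (3 * Nat.clog 2 (2 * h))) x y - unifInj h k y| := by
    have e : ∀ y, trackedLaw h k (3 * Nat.clog 2 (2 * h) + t) x y
        = (Kmat h k ^ (3 * Nat.clog 2 (2 * h) + t)) x y := fun y => law_eq_pow h k _ x y
    rw [Finset.sum_congr rfl (fun y _ => by rw [e y])]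
    exact tv_mono (Kmat h k) (fun z y => stepProb_nonneg h k z y) (fun z => stepProb_sum h k z)
      (unifInj h k) (unif_stationary h k) x _ t
  exact le_trans (mul_le_mul_of_nonneg_left h1 (by norm_num)) (kcard_mixing h k x hx)

end Vale.Agent.Lib.P162.H57
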