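import Mathlib

namespace Vale.Agent.Lib.P162.H57

/-- arithmetic behind the `n ^ (1 - ε)` range: if `k ≤ n ^ (1 - ε)` and `ε r ≥ 2` then
`(k / 2) (18 k L / n) ^ r ≤ (1 / 2) (18 L) ^ r / n`. -/
theorem arith_poly (n k L ε : ℝ) (r : ℕ) (hn : 1 ≤ n) (hk0 : 0 ≤ k) (hL : 0 ≤ L) (hε : 0 < ε)
    (hk : k ≤ n ^ (1 - ε)) (hr : 2 ≤ ε * r) :
    (k / 2) * (18 * k * L / n) ^ r ≤ (1 / 2) * (18 * L) ^ r / n := by
  have hn0 : (0 : ℝ) < n := lt_of_lt_of_le zero_lt_one hn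
  -- k ≤ n
  have hkn : k ≤ n := by
    refine le_trans hk ?_
    calc n ^ (1 - ε) ≤ n ^ (1 : ℝ) := Real.rpow_le_rpow_of_exponent_le hn (by linarith)
      _ = n := Real.rpow_one n
  -- k / n ≤ n ^ (-ε)
  have h1 : k / n ≤ n ^ (-ε) := by
    rw [div_le_iff₀ hn0]
    calc k ≤ n ^ (1 - ε) := hk
      _ = n ^ (-ε) * n := by
          rw [show (1 - ε) = -ε + 1 by ring, Real.rpow_add hn0, Real.rpow_one]
  have h2 : (k / n) ^ r ≤ n ^ (-2 : ℝ) := by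
    calc (k / n) ^ r ≤ (n ^ (-ε)) ^ r := pow_le_pow_left₀ (div_nonneg hk0 hn0.le) h1 r
      _ = n ^ (-ε * r) := by rw [← Real.rpow_natCast, ← Real.rpow_mul hn0.le]
      _ ≤ n ^ (-2 : ℝ) := Real.rpow_le_rpow_of_exponent_le hn (by linarith)
  have h3 : k * (k / n) ^ r ≤ 1 / n := by
    calc k * (k / n) ^ r ≤ n * n ^ (-2 : ℝ) :=
          mul_le_mul hkn h2 (pow_nonneg (div_nonneg hk0 hn0.le) r) hn0.le
      _ = 1 / n := by
          rw [show (-2 : ℝ) = -1 + -1 by norm_num, Real.rpow_add hn0, Real.rpow_neg_one]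
          field_simp
  have h4 : (k / 2) * (18 * k * L / n) ^ r = (1 / 2) * (18 * L) ^ r * (k * (k / n) ^ r) := by
    rw [show 18 * k * L / n = (18 * L) * (k / n) by ring, mul_pow]
    ring
  calc (k / 2) * (18 * k * L / n) ^ r = (1 / 2) * (18 * L) ^ r * (k * (k / n) ^ r) := h4
    _ ≤ (1 / 2) * (18 * L) ^ r * (1 / n) := mul_le_mul_of_nonneg_left h3 (by positivity)
    _ = (1 / 2) * (18 * L) ^ r / n := by ring

/-- arithmetic behind the `n / (36 log n)` range: if `36 k L ≤ n ≤ 2 ^ L` and `r = 2 L` then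
`(k / 2) (18 k L / n) ^ r ≤ k / (2 n ^ 2)`. -/
theorem arith_polylog (n k : ℝ) (L : ℕ) (hn : 0 < n) (hk0 : 0 ≤ k) (hk : 36 * k * L ≤ n)
    (hL : n ≤ 2 ^ L) :
    (k / 2) * (18 * k * L / n) ^ (2 * L) ≤ k / (2 * n ^ 2) := by
  have h1 : 18 * k * L / n ≤ 1 / 2 := by
    rw [div_le_iff₀ hn]
    linarith
  have h0 : 0 ≤ 18 * k * (L : ℝ) / n := by positivity
  have h2 : (18 * k * L / n) ^ (2 * L) ≤ 1 / n ^ 2 := by
    calc (18 * k * L / n) ^ (2 * L) ≤ (1 / 2 : ℝ) ^ (2 * L) := pow_le_pow_left₀ h0 h1 _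
      _ = 1 / (2 ^ L) ^ 2 := by
          rw [one_div, inv_pow, one_div, ← pow_mul, mul_comm]
      _ ≤ 1 / n ^ 2 := by
          apply one_div_le_one_div_of_le (by positivity)
          exact pow_le_pow_left₀ hn.le hL 2
  calc (k / 2) * (18 * k * L / n) ^ (2 * L) ≤ (k / 2) * (1 / n ^ 2) :=
        mul_le_mul_of_nonneg_left h2 (by positivity)
    _ = k / (2 * n ^ 2) := by
        field_simp

end Vale.Agent.Lib.P162.H57
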