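import Mathlib
import Vale.Agent.Lib.P162.Defs
import Vale.Agent.Lib.P162.Law
import Vale.Agent.Lib.P162.RDefs
import Vale.Agent.Lib.P162.helper57.Final

/-!
Thorp shuffle, tracked cards added one at a time: the final recursion. From the one-block bound
for the defect of a new card (`hR7`), its contraction (`hR8`) and the one-card step (`hR9`) to the
bound for `k` tracked cards after at least `3 r ⌈log₂ n⌉` shuffles.
-/

namespace Vale.Agent.Lib.P162.H57

open Finset BigOperators
open Vale.Agent.Lib.P162.H95 (stepProb_nonneg stepProb_sum Kmat_pow_sum)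
open Vale.Agent.Lib.P162.H6 (law_eq_pow)
open Vale.Agent.Lib.P162.H52 (unif_stationary)

theorem defect_nonneg (h j : ℕ) [NeZero h] (t : ℕ) (z : Fin (j + 1) → ZMod (2 * h)) :
    0 ≤ defect h j t z := by
  rw [defect_apply]
  exact Finset.sum_nonneg fun y _ => abs_nonneg _

/-- `r` blocks: the defect of the new card is at most `η ^ r`. -/
theorem defect_blocks (h : ℕ) [NeZero h] (j s : ℕ) (η : ℝ)
    (hη : ∀ u : Fin (j + 1) → ZMod (2 * h), Function.Injective u → defect h j s u ≤ η)
    (hR8 : ∀ z : Fin (j + 1) → ZMod (2 * h), Function.Injective z → ∀ t : ℕ,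
        defect h j (t + s) z ≤ η * defect h j t z)
    (hη0 : 0 ≤ η) (r : ℕ) (z : Fin (j + 1) → ZMod (2 * h)) (hz : Function.Injective z) :
    defect h j ((r + 1) * s) z ≤ η ^ (r + 1) := by
  induction r with
  | zero =>
    rw [zero_add, one_mul, pow_one]
    exact hη z hz
  | succ r ih =>
    have e : (r + 1 + 1) * s = (r + 1) * s + s := by ring
    rw [e]
    calc defect h j ((r + 1) * s + s) z ≤ η * defect h j ((r + 1) * s) z := hR8 z hz _
      _ ≤ η * η ^ (r + 1) := mul_le_mul_of_nonneg_left ih hη0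
      _ = η ^ (r + 1 + 1) := by ring

/-- induction over the cards -/
theorem cards_induction (h : ℕ) [NeZero h] (t : ℕ) (b : ℕ → ℝ)
    (hdef : ∀ (j : ℕ) (z : Fin (j + 1) → ZMod (2 * h)), Function.Injective z →
      defect h j t z ≤ b j)
    (hR9 : ∀ (j : ℕ) (z : Fin (j + 1) → ZMod (2 * h)), Function.Injective z →
      ∑ y, |(Kmat h (j + 1) ^ t) z y - unifInj h (j + 1) y|
        ≤ defect h j t z + ∑ v, |(Kmat h j ^ t) (Fin.tail z) v - unifInj h j v|)
    (k : ℕ) (x : Fin k → ZMod (2 * h)) (hx : Function.Injective x) :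
    ∑ y, |(Kmat h k ^ t) x y - unifInj h k y| ≤ ∑ j ∈ range k, b j := by
  induction k with
  | zero =>
    rw [Finset.range_zero, Finset.sum_empty]
    apply le_of_eq
    have h1 : ∀ y : Fin 0 → ZMod (2 * h), (Kmat h 0 ^ t) x y = 1 := by
      intro y
      have hs := Kmat_pow_sum h 0 t x
      rw [Fintype.sum_eq_single y (fun y' hy' => absurd (Subsingleton.elim y' y) hy')] at hs
      exact hs
    have h2 : ∀ y : Fin 0 → ZMod (2 * h), unifInj h 0 y = 1 := by
      intro y
      rw [defs_aux_unifInj, if_pos (Function.injective_of_subsingleton y)]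
      simp
    apply Finset.sum_eq_zero
    intro y _
    rw [h1 y, h2 y, sub_self, abs_zero]
  | succ k ih =>
    have htail : Function.Injective (Fin.tail x) := by
      intro a b hab
      have : x a.succ = x b.succ := hab
      exact Fin.succ_injective _ (hx this)
    rw [Finset.sum_range_succ]
    have h1 := hR9 k x hx
    have h2 := hdef k x hx
    have h3 := ih (Fin.tail x) htail
    linarith

/-- The final recursion for Theorem R. -/
theorem R_final (h : ℕ) [NeZero h]
    (hR7 : ∀ (j : ℕ) (z : Fin (j + 1) → ZMod (2 * h)), Function.Injective z →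
      defect h j (3 * Nat.clog 2 (2 * h)) z
        ≤ (16 * (Nat.clog 2 (2 * h) : ℝ) * j + 1 + 2 * j) / (2 * h : ℝ))
    (hR8 : ∀ (j s : ℕ) (η : ℝ),
      (∀ u : Fin (j + 1) → ZMod (2 * h), Function.Injective u → defect h j s u ≤ η) →
      ∀ z : Fin (j + 1) → ZMod (2 * h), Function.Injective z → ∀ t : ℕ,
        defect h j (t + s) z ≤ η * defect h j t z)
    (hR9 : ∀ (j t : ℕ) (z : Fin (j + 1) → ZMod (2 * h)), Function.Injective z →
      ∑ y, |(Kmat h (j + 1) ^ t) z y - unifInj h (j + 1) y|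
        ≤ defect h j t z + ∑ v, |(Kmat h j ^ t) (Fin.tail z) v - unifInj h j v|)
    (k r : ℕ) (hr : 1 ≤ r) (x : Fin k → ZMod (2 * h)) (hx : Function.Injective x)
    (T : ℕ) (hT : 3 * r * Nat.clog 2 (2 * h) ≤ T) :
    (1 / 2 : ℝ) * ∑ y, |trackedLaw h k T x y - unifInj h k y|
      ≤ (k / 2 : ℝ) * (18 * k * (Nat.clog 2 (2 * h) : ℝ) / (2 * h : ℝ)) ^ r := by
  set L := Nat.clog 2 (2 * h) with hL
  have hhpos : 0 < h := NeZero.pos h
  have hh : (0 : ℝ) < h := by exact_mod_cast hhpos
  have hL1 : 1 ≤ L := Nat.clog_pos (by norm_num) (by omega)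
  have hLr : (1 : ℝ) ≤ L := by exact_mod_cast hL1
  obtain ⟨r', rfl⟩ := Nat.exists_eq_add_of_le' hr
  -- the one-block constants
  set η : ℕ → ℝ := fun j => (16 * (L : ℝ) * j + 1 + 2 * j) / (2 * h : ℝ) with hη
  have hη0 : ∀ j, 0 ≤ η j := by
    intro j
    rw [hη]
    positivity
  -- defect after r blocks
  have hdef : ∀ (j : ℕ) (z : Fin (j + 1) → ZMod (2 * h)), Function.Injective z →
      defect h j ((r' + 1) * (3 * L)) z ≤ η j ^ (r' + 1) := by
    intro j z hz
    exact defect_blocks h j (3 * L) (η j) (hR7 j) (hR8 j (3 * L) (η j) (hR7 j)) (hη0 j) r' z hz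
  -- all the cards
  have hcards := cards_induction h ((r' + 1) * (3 * L)) (fun j => η j ^ (r' + 1)) hdef
    (fun j z hz => hR9 j ((r' + 1) * (3 * L)) z hz) k x hx
  -- each term
  have hterm : ∀ j ∈ range k, η j ^ (r' + 1)
      ≤ (18 * k * (L : ℝ) / (2 * h : ℝ)) ^ (r' + 1) := by
    intro j hj
    rw [Finset.mem_range] at hj
    apply pow_le_pow_left₀ (hη0 j)
    rw [hη]
    apply div_le_div_of_nonneg_right _ (by positivity)
    have hjk : (j : ℝ) + 1 ≤ k := by exact_mod_cast hj
    have hj0 : (0 : ℝ) ≤ j := Nat.cast_nonneg j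
    nlinarith [mul_nonneg hj0 (sub_nonneg.mpr hLr)]
  have hsum : ∑ y, |(Kmat h k ^ ((r' + 1) * (3 * L))) x y - unifInj h k y|
      ≤ (k : ℝ) * (18 * k * (L : ℝ) / (2 * h : ℝ)) ^ (r' + 1) := by
    refine le_trans hcards (le_trans (Finset.sum_le_sum hterm) ?_)
    rw [Finset.sum_const, Finset.card_range, nsmul_eq_mul]
  -- later times and the explicit law
  have hT' : (r' + 1) * (3 * L) ≤ T := by
    have : (r' + 1) * (3 * L) = 3 * (r' + 1) * L := by ring
    rw [this]
    exact hT
  obtain ⟨t, rfl⟩ := Nat.exists_eq_add_of_le hT'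
  have h1 : ∑ y, |trackedLaw h k ((r' + 1) * (3 * L) + t) x y - unifInj h k y|
      ≤ ∑ y, |(Kmat h k ^ ((r' + 1) * (3 * L))) x y - unifInj h k y| := by
    have e : ∀ y, trackedLaw h k ((r' + 1) * (3 * L) + t) x y
        = (Kmat h k ^ ((r' + 1) * (3 * L) + t)) x y := fun y => law_eq_pow h k _ x y
    rw [Finset.sum_congr rfl (fun y _ => by rw [e y])]
    exact tv_mono (Kmat h k) (fun z y => stepProb_nonneg h k z y) (fun z => stepProb_sum h k z)
      (unifInj h k) (unif_stationary h k) x _ t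
  calc (1 / 2 : ℝ) * ∑ y, |trackedLaw h k ((r' + 1) * (3 * L) + t) x y - unifInj h k y|
      ≤ (1 / 2 : ℝ) * ((k : ℝ) * (18 * k * (L : ℝ) / (2 * h : ℝ)) ^ (r' + 1)) :=
        mul_le_mul_of_nonneg_left (le_trans h1 hsum) (by norm_num)
    _ = (k / 2 : ℝ) * (18 * k * (L : ℝ) / (2 * h : ℝ)) ^ (r' + 1) := by ring

end Vale.Agent.Lib.P162.H57
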