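import Mathlib
import Vale.Agent.Lib.P162.Defs
import Vale.Agent.Lib.P162.RDefs
import Vale.Agent.Lib.P162.CVDefs
import Vale.Agent.Lib.P162.helper52.KilledLower
import Vale.Agent.Lib.P162.helper33.PartnerProb
import Vale.Agent.Lib.P162.helper95.KmatBasic
import Vale.Agent.Lib.P162.helper93.Gap
import Vale.Agent.Lib.P162.helper36.MoveInj

/-!
Thorp shuffle, glue for the two-walker minorization: the chain of j + 2 cards, killed with
probability one half at each time its first two cards share a coin, still has its first two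
cards sharing a coin at time 7 L with probability close to one half of 1 / (2 h - 1).
-/

namespace Vale.Agent.Lib.P162.H57CV

open Finset BigOperators

theorem reach (h j : ℕ) [NeZero h] (u : Fin (j + 2) → ZMod (2 * h)) (hu : u 0 ≠ u 1) :
    1 / ((2 * h : ℝ) - 1) - 2592 * (Nat.clog 2 (2 * h) : ℝ) ^ 2 / (2 * h : ℝ) ^ 2
        - (1 / ((2 * h : ℝ) - 1) + 2592 * (Nat.clog 2 (2 * h) : ℝ) ^ 2 / (2 * h : ℝ) ^ 2) / 2
        - ((7 * Nat.clog 2 (2 * h) : ℕ) : ℝ) * (1 / 2 ^ Nat.log 2 h) ^ 2 / 2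
      ≤ ∑ b ∈ univ.filter (fun y : Fin (j + 2) → ZMod (2 * h) =>
            y 1 = y 0 + (h : ZMod (2 * h))),
          ((Matrix.of fun (a b : Fin (j + 2) → ZMod (2 * h)) =>
            (if a 1 = a 0 + (h : ZMod (2 * h)) then (1 / 2 : ℝ) else 1)
              * Kmat h (j + 2) a b) ^ (7 * Nat.clog 2 (2 * h))) u b := by
  classical
  have hh : 0 < h := Nat.pos_of_ne_zero (NeZero.ne h)
  have hlog : 2 ^ Nat.log 2 h ≤ h := Nat.pow_log_le_self 2 (NeZero.ne h)
  have hhne : (h : ZMod (2 * h)) ≠ 0 := by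
    intro h0
    rw [ZMod.natCast_eq_zero_iff] at h0
    have := Nat.le_of_dvd hh h0
    omega
  have hPG : ∀ a ∈ univ.filter (fun y : Fin (j + 2) → ZMod (2 * h) =>
      y 1 = y 0 + (h : ZMod (2 * h))), a 0 ≠ a 1 := by
    intro a ha h01
    have h1 := (mem_filter.mp ha).2
    rw [← h01] at h1
    exact hhne (by simpa using h1.symm)
  have hmixabs := fun (a : Fin (j + 2) → ZMod (2 * h)) (ha : a 0 ≠ a 1) (s : ℕ)
      (hs : 6 * Nat.clog 2 (2 * h) ≤ s) => abs_le.mp (H33CV.pp_mix h j a ha s hs)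
  have hm0 : Nat.log 2 h ≤ Nat.clog 2 (2 * h) := by
    have h1 : Nat.log 2 h ≤ Nat.log 2 (2 * h) := Nat.log_mono_right (by omega)
    have h2 : Nat.log 2 (2 * h) ≤ Nat.clog 2 (2 * h) := Nat.log_le_clog 2 (2 * h)
    omega
  have hn1 : (1 : ℝ) ≤ (2 * h : ℝ) - 1 := by
    have : (1 : ℝ) ≤ (h : ℝ) := by exact_mod_cast hh
    linarith
  have key := H52CV.killed_lower (Kmat h (j + 2))
    (fun a b => H95.stepProb_nonneg h (j + 2) a b) (fun a => H95.stepProb_sum h (j + 2) a)
    (univ.filter (fun y : Fin (j + 2) → ZMod (2 * h) => y 1 = y 0 + (h : ZMod (2 * h))))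
    (fun a => a 0 ≠ a 1)
    (by
      intro a b hab hK hb
      obtain ⟨c, hc⟩ := H93.H93_step_witness h (j + 2) a b hK
      apply hab
      apply H36.move_injective h c
      rw [hc 0, hc 1, hb])
    hPG (Nat.log 2 h) (6 * Nat.clog 2 (2 * h)) (7 * Nat.clog 2 (2 * h))
    (1 / ((2 * h : ℝ) - 1) + 2592 * (Nat.clog 2 (2 * h) : ℝ) ^ 2 / (2 * h : ℝ) ^ 2)
    (1 / 2 ^ Nat.log 2 h)
    (1 / ((2 * h : ℝ) - 1) - 2592 * (Nat.clog 2 (2 * h) : ℝ) ^ 2 / (2 * h : ℝ) ^ 2)
    (by positivity) (by positivity)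
    (by
      intro a ha s hs1 hs
      exact H33CV.pp_gap h j a (mem_filter.mp ha).2 s hs1
        (le_trans (Nat.pow_le_pow_right (by norm_num) hs) hlog))
    (by
      intro a ha s hs
      exact H33CV.pp_upper h j a ha (Nat.log 2 h) s hlog hs)
    (by
      intro a ha s hs
      have := (hmixabs a (hPG a ha) s hs).2
      linarith)
    (by omega) u hu
    (by
      have := (hmixabs u hu (7 * Nat.clog 2 (2 * h)) (by omega)).1
      linarith)
  have hmat : (Matrix.of fun (a b : Fin (j + 2) → ZMod (2 * h)) =>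
      (if a ∈ univ.filter (fun y : Fin (j + 2) → ZMod (2 * h) =>
        y 1 = y 0 + (h : ZMod (2 * h))) then (1 / 2 : ℝ) else 1) * Kmat h (j + 2) a b)
      = (Matrix.of fun (a b : Fin (j + 2) → ZMod (2 * h)) =>
      (if a 1 = a 0 + (h : ZMod (2 * h)) then (1 / 2 : ℝ) else 1) * Kmat h (j + 2) a b) := by
    funext a b
    rw [Matrix.of_apply, Matrix.of_apply]
    congr 1
    by_cases ha : a 1 = a 0 + (h : ZMod (2 * h))
    · have hmem : a ∈ univ.filter (fun y : Fin (j + 2) → ZMod (2 * h) =>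
          y 1 = y 0 + (h : ZMod (2 * h))) := mem_filter.mpr ⟨mem_univ a, ha⟩
      rw [if_pos ha, if_pos hmem]
    · have hmem : a ∉ univ.filter (fun y : Fin (j + 2) → ZMod (2 * h) =>
          y 1 = y 0 + (h : ZMod (2 * h))) := fun hm => ha (mem_filter.mp hm).2
      rw [if_neg ha, if_neg hmem]
  rw [hmat] at key
  convert key using 2
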